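import Vale.Agent.P136.Defs

/-! The differential algebra `Sm` of smooth complex functions on `ℝ³`, and common notions. -/

open MeasureTheory Metric
open scoped ContDiff

namespace Vale.Agent.P136

/-- Smooth complex functions on `ℝ³`. -/
def Sm : Subalgebra ℂ (E3 → ℂ) where
  carrier := {f | ContDiff ℝ ∞ f}
  mul_mem' := fun {f g} (hf : ContDiff ℝ ∞ f) (hg : ContDiff ℝ ∞ g) =>
    (hf.mul hg : ContDiff ℝ ∞ fun x => f x * g x)
  add_mem' := fun {f g} (hf : ContDiff ℝ ∞ f) (hg : ContDiff ℝ ∞ g) =>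
    (hf.add hg : ContDiff ℝ ∞ fun x => f x + g x)
  algebraMap_mem' := fun c => (contDiff_const : ContDiff ℝ ∞ fun _ : E3 => c)

theorem Sm.smooth (f : Sm) : ContDiff ℝ ∞ f.1 := f.2

theorem Sm.cont (f : Sm) : Continuous f.1 := (Sm.smooth f).continuous

theorem Sm.diff (f : Sm) : Differentiable ℝ f.1 := (Sm.smooth f).differentiable (by simp)

/-- Basis vector. -/
noncomputable def ee (j : Fin 3) : E3 := EuclideanSpace.single j 1

/-- Directional derivative as a derivation of `Sm`. -/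
noncomputable def dv (v : E3) : Derivation ℂ Sm Sm :=
  Derivation.mk'
    { toFun := fun f => ⟨fun x => fderiv ℝ f.1 x v,
        ((Sm.smooth f).fderiv_right (m := ∞) (by simp)).clm_apply contDiff_const⟩
      map_add' := fun f g => by
        ext x
        have := fderiv_add (𝕜 := ℝ) (Sm.diff f x) (Sm.diff g x)
        simp only [Subalgebra.coe_add, Pi.add_apply]
        rw [this]; rfl
      map_smul' := fun c f => by
        ext x
        have := fderiv_const_smul (𝕜 := ℝ) (Sm.diff f x) c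
        simp only [Subalgebra.coe_smul, RingHom.id_apply, Pi.smul_apply]
        rw [this]; rfl }
    (fun f g => by
      ext x
      have := fderiv_mul (𝕜 := ℝ) (Sm.diff f x) (Sm.diff g x)
      simp only [LinearMap.coe_mk, AddHom.coe_mk, Subalgebra.coe_mul, smul_eq_mul,
        Subalgebra.coe_add, Pi.add_apply, Pi.mul_apply]
      rw [this]; simp)

theorem dv_apply (v : E3) (f : Sm) (x : E3) : (dv v f).1 x = fderiv ℝ f.1 x v := rfl

theorem dv_comm (v w : E3) (f : Sm) : dv v (dv w f) = dv w (dv v f) := by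
  ext x
  have h2 : ContDiffAt ℝ 2 f.1 x := ((Sm.smooth f).of_le (by norm_cast)).contDiffAt
  have hs := h2.isSymmSndFDerivAt (by simp)
  have hd : DifferentiableAt ℝ (fderiv ℝ f.1) x :=
    (((Sm.smooth f).fderiv_right (m := ∞) (by simp)).differentiable (by simp)) x
  have key : ∀ a b : E3, fderiv ℝ (fun y => fderiv ℝ f.1 y b) x a
      = fderiv ℝ (fderiv ℝ f.1) x a b := by
    intro a b
    rw [fderiv_clm_apply hd (differentiableAt_const _)]
    simp
  change fderiv ℝ (fun y => fderiv ℝ f.1 y w) x v = fderiv ℝ (fun y => fderiv ℝ f.1 y v) x w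
  rw [key, key]; exact hs.eq v w

/-- The coordinate derivative `∂_j`. -/
noncomputable def dd (j : Fin 3) : Derivation ℂ Sm Sm := dv (ee j)

theorem dd_apply (j : Fin 3) (f : Sm) (x : E3) : (dd j f).1 x = fderiv ℝ f.1 x (ee j) := rfl

theorem dd_comm (i j : Fin 3) (f : Sm) : dd i (dd j f) = dd j (dd i f) := dv_comm _ _ f

theorem dd10 (f : Sm) : dd 1 (dd 0 f) = dd 0 (dd 1 f) := dd_comm _ _ f
theorem dd20 (f : Sm) : dd 2 (dd 0 f) = dd 0 (dd 2 f) := dd_comm _ _ f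
theorem dd21 (f : Sm) : dd 2 (dd 1 f) = dd 1 (dd 2 f) := dd_comm _ _ f

/-- The complex directional derivative `θ · ∇`. -/
noncomputable def DD (θ : Fin 3 → ℂ) : Derivation ℂ Sm Sm := ∑ j, θ j • dd j

theorem DD_apply (θ : Fin 3 → ℂ) (f : Sm) : DD θ f = ∑ j, θ j • dd j f := by
  simp [DD, Fin.sum_univ_three]

theorem dd_DD (θ : Fin 3 → ℂ) (i : Fin 3) (f : Sm) : dd i (DD θ f) = DD θ (dd i f) := by
  simp only [DD_apply, map_sum, Derivation.map_smul, dd_comm i]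

/-- Laplacian. -/
noncomputable def lap (f : Sm) : Sm := ∑ j, dd j (dd j f)

/-- Divergence. -/
noncomputable def dvg (u : Fin 3 → Sm) : Sm := ∑ j, dd j (u j)

/-- Pairing of a constant complex vector with a vector field. -/
noncomputable def cdot (θ : Fin 3 → ℂ) (u : Fin 3 → Sm) : Sm := ∑ j, θ j • u j

/-- Null vectors: `θ · θ = 0`. -/
def IsNull (θ : Fin 3 → ℂ) : Prop := ∑ j, θ j * θ j = 0

/-- The linear form `x ↦ ζ · x`. -/
noncomputable def lin (ζ : Fin 3 → ℂ) (x : E3) : ℂ := ∑ j, ζ j * (x j : ℂ)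

theorem lin_smooth (ζ : Fin 3 → ℂ) : ContDiff ℝ ∞ (lin ζ) := by
  unfold lin
  refine ContDiff.sum fun j _ => contDiff_const.mul ?_
  exact Complex.ofRealCLM.contDiff.comp (EuclideanSpace.proj j : E3 →L[ℝ] ℝ).contDiff

/-- The exponential `e^{ζ · x}`. -/
noncomputable def ex (ζ : Fin 3 → ℂ) : Sm :=
  ⟨fun x => Complex.exp (lin ζ x), (lin_smooth ζ).cexp⟩

theorem fderiv_lin (ζ : Fin 3 → ℂ) (x : E3) (j : Fin 3) : fderiv ℝ (lin ζ) x (ee j) = ζ j := by
  let L : E3 →L[ℝ] ℂ := ∑ i, ζ i • (Complex.ofRealCLM.comp (EuclideanSpace.proj i : E3 →L[ℝ] ℝ))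
  have hL : lin ζ = L := by
    funext y; simp [lin, L]
  rw [hL, L.fderiv]
  fin_cases j <;> simp [L, ee, Fin.sum_univ_three]

theorem dd_ex (ζ : Fin 3 → ℂ) (j : Fin 3) : dd j (ex ζ) = ζ j • ex ζ := by
  ext x
  have h1 : HasFDerivAt (lin ζ) (fderiv ℝ (lin ζ) x) x :=
    ((lin_smooth ζ).differentiable (by simp) x).hasFDerivAt
  have h2 := h1.cexp.fderiv
  change fderiv ℝ (fun x => Complex.exp (lin ζ x)) x (ee j) = ζ j * Complex.exp (lin ζ x)
  rw [h2]; simp [fderiv_lin, mul_comm]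

theorem ex_mul_ex_neg (ζ : Fin 3 → ℂ) : ex (-ζ) * ex ζ = 1 := by
  ext x
  change Complex.exp (lin (-ζ) x) * Complex.exp (lin ζ x) = 1
  rw [← Complex.exp_add]
  simp [lin, Finset.sum_neg_distrib]

/-- Evaluation at a point. -/
noncomputable def ev (x : E3) : Sm →ₐ[ℂ] ℂ := (Pi.evalAlgHom ℂ (fun _ : E3 => ℂ) x).comp Sm.val

theorem ev_apply (x : E3) (f : Sm) : ev x f = f.1 x := rfl

theorem sum_val {ι : Type} (s : Finset ι) (f : ι → Sm) (x : E3) :
    (∑ i ∈ s, f i).1 x = ∑ i ∈ s, (f i).1 x := by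
  rw [← ev_apply, map_sum]; rfl

/-- The ideal of functions vanishing on the open ball of radius `R`. -/
def van (R : ℝ) : Ideal Sm where
  carrier := {f | ∀ x ∈ ball (0 : E3) R, f.1 x = 0}
  add_mem' := fun {f g} hf hg x hx => by
    change f.1 x + g.1 x = 0
    rw [hf x hx, hg x hx, add_zero]
  zero_mem' := fun _ _ => rfl
  smul_mem' := fun c f hf x hx => by
    change c.1 x * f.1 x = 0
    rw [hf x hx, mul_zero]

theorem mem_van {R : ℝ} {f : Sm} : f ∈ van R ↔ ∀ x ∈ ball (0 : E3) R, f.1 x = 0 := Iff.rfl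

theorem dv_mem_van {R : ℝ} {f : Sm} (v : E3) (hf : f ∈ van R) : dv v f ∈ van R := by
  intro x hx
  have : f.1 =ᶠ[nhds x] fun _ => 0 := by
    filter_upwards [isOpen_ball.mem_nhds hx] with y hy using hf y hy
  rw [dv_apply, this.fderiv_eq]; simp

theorem dd_mem_van {R : ℝ} {f : Sm} (j : Fin 3) (hf : f ∈ van R) : dd j f ∈ van R :=
  dv_mem_van _ hf

theorem smul_mem_van {R : ℝ} {f : Sm} (c : ℂ) (hf : f ∈ van R) : c • f ∈ van R := by
  intro x hx
  change c * f.1 x = 0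
  rw [hf x hx, mul_zero]

theorem DD_mem_van {R : ℝ} {f : Sm} (θ : Fin 3 → ℂ) (hf : f ∈ van R) : DD θ f ∈ van R := by
  rw [DD_apply]
  exact Ideal.sum_mem _ fun j _ => smul_mem_van _ (dd_mem_van j hf)

/-- `Y` solves the transport system `θ·∇ Y = A Y + ψ` on the ball of radius `R`. -/
def Solves {ι : Type} [Fintype ι] (θ : Fin 3 → ℂ) (R : ℝ) (A : ι → ι → Sm) (Y ψ : ι → Sm) : Prop :=
  ∀ a, DD θ (Y a) - ∑ b, A a b * Y b - ψ a ∈ van R

/-- The matrix of the tensor product system `D Y = B₁ Y + Y B₂ᵀ`. -/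
noncomputable def tens {ι κ : Type} [DecidableEq ι] [DecidableEq κ] (B₁ : ι → ι → Sm)
    (B₂ : κ → κ → Sm) (p q : ι × κ) : Sm :=
  (if p.2 = q.2 then B₁ p.1 q.1 else 0) + (if p.1 = q.1 then B₂ p.2 q.2 else 0)

theorem tens_sum {ι κ : Type} [Fintype ι] [Fintype κ] [DecidableEq ι] [DecidableEq κ]
    (B₁ : ι → ι → Sm) (B₂ : κ → κ → Sm) (Y : ι × κ → Sm) (p : ι × κ) :
    ∑ q, tens B₁ B₂ p q * Y q
      = ∑ a, B₁ p.1 a * Y (a, p.2) + ∑ b, B₂ p.2 b * Y (p.1, b) := by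
  simp only [tens, add_mul, Finset.sum_add_distrib, Fintype.sum_prod_type, ite_mul, zero_mul]
  congr 1
  · refine Finset.sum_congr rfl fun a _ => ?_
    simp
  · rw [Finset.sum_comm]
    refine Finset.sum_congr rfl fun b _ => ?_
    simp

/-- The product of two vectors as a tensor. -/
def tp {ι κ : Type} (y : ι → Sm) (z : κ → Sm) (p : ι × κ) : Sm := y p.1 * z p.2

/-- The complex plane coordinate `z_θ(x) = 2 θ·x / |θ|²` attached to a null vector. -/
noncomputable def zc (θ : Fin 3 → ℂ) (x : E3) : ℂ := 2 * lin θ x / ((∑ j, ‖θ j‖ ^ 2 : ℝ) : ℂ)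

/-- The Gaussian weight centred at `x₀`. -/
noncomputable def wt (N : ℝ) (θ : Fin 3 → ℂ) (x₀ x : E3) : ℝ :=
  Real.exp (N * ‖zc θ (x - x₀)‖ ^ 2 / 2)

theorem wt_pos (N : ℝ) (θ : Fin 3 → ℂ) (x₀ x : E3) : 0 < wt N θ x₀ x := Real.exp_pos _

/-- Squared size of the values. -/
noncomputable def jet0 {ι : Type} [Fintype ι] (Y : ι → Sm) (x : E3) : ℝ := ∑ a, ‖(Y a).1 x‖ ^ 2

/-- Squared size of the first derivatives. -/
noncomputable def jet1 {ι : Type} [Fintype ι] (Y : ι → Sm) (x : E3) : ℝ :=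
  ∑ a, ∑ j, ‖(dd j (Y a)).1 x‖ ^ 2

/-- Squared size of the second derivatives. -/
noncomputable def jet2 {ι : Type} [Fintype ι] (Y : ι → Sm) (x : E3) : ℝ :=
  ∑ a, ∑ i, ∑ j, ‖(dd i (dd j (Y a))).1 x‖ ^ 2

/-- Squared size of the whole 2-jet. -/
noncomputable def jetA {ι : Type} [Fintype ι] (Y : ι → Sm) (x : E3) : ℝ :=
  jet0 Y x + jet1 Y x + jet2 Y x

/-- The second order system `Δ Y + ∑ A_j ∂_j Y + A₀ Y`. -/
noncomputable def opB {ι : Type} [Fintype ι] (A : Fin 3 → ι → ι → Sm) (A₀ : ι → ι → Sm)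
    (Y : ι → Sm) (a : ι) : Sm :=
  lap (Y a) + ∑ j, ∑ b, A j a b * dd j (Y b) + ∑ b, A₀ a b * Y b

/-- Its transport operator `2 θ·∇ Y + (∑ θ_j A_j) Y`. -/
noncomputable def opT {ι : Type} [Fintype ι] (A : Fin 3 → ι → ι → Sm) (θ : Fin 3 → ℂ)
    (Y : ι → Sm) (a : ι) : Sm :=
  (2 : ℂ) • DD θ (Y a) + ∑ j, ∑ b, θ j • (A j a b * Y b)

/-- A cutoff equal to one on the closed ball of radius `R`, vanishing outside radius `R + 1`. -/
theorem exists_cut (R : ℝ) (hR : 0 < R) : ∃ χ : Sm, (∀ x, ‖x‖ ≤ R → χ.1 x = 1) ∧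
    (∀ x, R + 1 ≤ ‖x‖ → χ.1 x = 0) ∧ ∀ x, ∃ t : ℝ, 0 ≤ t ∧ t ≤ 1 ∧ χ.1 x = t := by
  let b : ContDiffBump (0 : E3) := ⟨R, R + 1, hR, by linarith⟩
  refine ⟨⟨fun x => (b x : ℂ), Complex.ofRealCLM.contDiff.comp b.contDiff⟩, ?_, ?_, ?_⟩
  · intro x hx
    have : b x = 1 := b.one_of_mem_closedBall (by simpa using hx)
    simp [this]
  · intro x hx
    have : b x = 0 := b.zero_of_le_dist (by simpa using hx)
    simp [this]
  · intro x
    exact ⟨b x, b.nonneg, b.le_one, rfl⟩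

end Vale.Agent.P136
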