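import Mathlib

/-! Statement-level definitions: `H¹(Ω; ℝ³)`, traces, the Lamé energy and the
displacement-to-traction map. -/

open MeasureTheory
open scoped ContDiff

namespace Vale.Agent.P136

/-- Euclidean three-space. -/
abbrev E3 : Type := EuclideanSpace ℝ (Fin 3)

/-- The classical derivative `∂_j φ`. -/
noncomputable def pd (j : Fin 3) (φ : E3 → ℝ) (x : E3) : ℝ :=
  fderiv ℝ φ x (EuclideanSpace.single j 1)

/-- Test functions `C_c^∞(Ω)`. -/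
def IsTest (Ω : Set E3) (φ : E3 → ℝ) : Prop :=
  ContDiff ℝ ∞ φ ∧ HasCompactSupport φ ∧ tsupport φ ⊆ Ω

/-- An element of `H¹(Ω; ℝ³)`: square integrable components `u i` with square integrable
weak derivatives `g i j = ∂_j u_i`. -/
structure H1 (Ω : Set E3) where
  u : Fin 3 → E3 → ℝ
  g : Fin 3 → Fin 3 → E3 → ℝ
  mem_u : ∀ i, MemLp (u i) 2 (volume.restrict Ω)
  mem_g : ∀ i j, MemLp (g i j) 2 (volume.restrict Ω)
  weak : ∀ i j φ, IsTest Ω φ → ∫ x in Ω, u i x * pd j φ x = - ∫ x in Ω, g i j x * φ x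

/-- `u - v ∈ H¹₀(Ω; ℝ³)`, the `H¹` closure of the test fields; equivalently `u` and `v` have the
same boundary trace. -/
def SameTrace (Ω : Set E3) (u v : H1 Ω) : Prop :=
  ∀ ε : ℝ, 0 < ε → ∃ ψ : Fin 3 → E3 → ℝ, (∀ i, IsTest Ω (ψ i)) ∧
    (∑ i, ∫ x in Ω, (u.u i x - v.u i x - ψ i x) ^ 2) +
      (∑ i, ∑ j, ∫ x in Ω, (u.g i j x - v.g i j x - pd j (ψ i) x) ^ 2) < ε

/-- The trace space `H^{1/2}(∂Ω; ℝ³) = H¹ / H¹₀`. -/
def Trace (Ω : Set E3) : Type := Quot (SameTrace Ω)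

/-- The trace of an `H¹` field. -/
def tr {Ω : Set E3} (u : H1 Ω) : Trace Ω := Quot.mk (SameTrace Ω) u

/-- `∫_Ω λ (div u)(div v) + 2 μ e(u) : e(v)` in terms of the gradients `G = ∇u`, `H = ∇v`. -/
noncomputable def energy (Ω : Set E3) (lam mu : E3 → ℝ) (G H : Fin 3 → Fin 3 → E3 → ℝ) : ℝ :=
  ∫ x in Ω, (lam x * (∑ i, G i i x) * (∑ i, H i i x) +
    2 * mu x * ∑ i, ∑ j, ((G i j x + G j i x) / 2) * ((H i j x + H j i x) / 2))

/-- Weak solutions of `div σ(u) = 0` in `Ω`. -/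
def IsSol (Ω : Set E3) (lam mu : E3 → ℝ) (u : H1 Ω) : Prop :=
  ∀ ψ : Fin 3 → E3 → ℝ, (∀ i, IsTest Ω (ψ i)) →
    energy Ω lam mu u.g (fun i j => pd j (ψ i)) = 0

open Classical in
/-- The displacement-to-traction map as a bilinear pairing `⟨Λ f, g⟩`. -/
noncomputable def DN (Ω : Set E3) (lam mu : E3 → ℝ) (f g : Trace Ω) : ℝ :=
  if h : ∃ u : H1 Ω, IsSol Ω lam mu u ∧ tr u = f then
    energy Ω lam mu (Classical.choose h).g (Quot.out g).g
  else 0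

/-- Admissible Lamé moduli: smooth up to the boundary, `μ > 0` and `3λ + 2μ > 0` on the
closure of `Ω`. -/
def Admissible (Ω : Set E3) (lam mu : E3 → ℝ) : Prop :=
  ContDiff ℝ ∞ lam ∧ ContDiff ℝ ∞ mu ∧ ∀ x ∈ closure Ω, 0 < mu x ∧ 0 < 3 * lam x + 2 * mu x

end Vale.Agent.P136
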