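import Vale.Agent.P136.TKa

/-! The Cauchy-Pompeiu formula for compactly supported functions.

Plan. Polar coordinates `u = r e^{iφ}` (`Complex.integral_comp_polarCoord_symm`, target
`Ioi 0 ×ˢ Ioo (-π) π`). With `L = fderiv ℝ h u` (real linear),
`(r / u) • (L 1 + I • L I) = L (e^{iφ}) + I • L (I e^{iφ})` (write `e^{iφ} = cos φ + sin φ I` and
use real linearity), `L (e^{iφ}) = ∂_r h(r e^{iφ})` and `r • L (I e^{iφ}) = ∂_φ h(r e^{iφ})`.
Both pieces are bounded with support in `r ≤ ρ`, hence integrable on the strip; Fubini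
(`setIntegral_prod`, or `integral_prod` / `integral_prod_symm`): the radial piece gives
`∫_φ (0 - h 0) = -2π h 0` (`integral_Ioi_of_hasDerivAt_of_tendsto`, or an interval integral on
`0..ρ+1`), the angular piece gives for each `r > 0` the value
`r⁻¹ • (h (r e^{iπ}) - h (r e^{-iπ})) = 0`. -/

open MeasureTheory Metric Real
open scoped ContDiff

namespace Vale.Agent.P136

/-- The point of the unit circle with argument `φ`. -/
noncomputable def TCP_e (φ : ℝ) : ℂ := Real.cos φ + Real.sin φ * Complex.I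

theorem TCP_e_eq (φ : ℝ) : TCP_e φ = Complex.exp (φ * Complex.I) := by
  rw [TCP_e, Complex.exp_mul_I, Complex.ofReal_cos, Complex.ofReal_sin]

theorem TCP_norm (φ : ℝ) : ‖TCP_e φ‖ = 1 := by
  rw [TCP_e_eq, Complex.norm_exp_ofReal_mul_I]

theorem TCP_deriv (φ : ℝ) : HasDerivAt TCP_e (Complex.I * TCP_e φ) φ := by
  have h := ((Complex.ofRealCLM.hasDerivAt (x := φ)).mul_const Complex.I).cexp
  rw [funext TCP_e_eq]
  refine h.congr_deriv ?_
  simp [mul_comm]

theorem TCP_cont : Continuous TCP_e := continuous_iff_continuousAt.2 fun φ =>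
  (TCP_deriv φ).continuousAt

theorem TCP_alg {V : Type} [NormedAddCommGroup V] [NormedSpace ℂ V] (L : ℂ →L[ℝ] V) {r : ℝ}
    (hr : r ≠ 0) (φ : ℝ) :
    r • ((1 / (2 * π * (r * TCP_e φ)) : ℂ) • (L 1 + Complex.I • L Complex.I)) =
      (1 / (2 * π) : ℂ) • (L (TCP_e φ) + Complex.I • L (Complex.I * TCP_e φ)) := by
  have h1 : L (TCP_e φ) = (Real.cos φ : ℂ) • L 1 + (Real.sin φ : ℂ) • L Complex.I := by
    rw [Complex.coe_smul, Complex.coe_smul, ← map_smul, ← map_smul, ← map_add]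
    simp [TCP_e]
  have h2 : L (Complex.I * TCP_e φ) =
      ((-Real.sin φ : ℝ) : ℂ) • L 1 + (Real.cos φ : ℂ) • L Complex.I := by
    rw [Complex.coe_smul, Complex.coe_smul, ← map_smul, ← map_smul, ← map_add]
    refine congrArg L ?_
    simp only [TCP_e, Complex.real_smul, Complex.ofReal_neg]
    linear_combination (Real.sin φ : ℂ) * Complex.I_mul_I
  have h3 : (Real.cos φ : ℂ) ^ 2 + (Real.sin φ : ℂ) ^ 2 = 1 := by
    exact_mod_cast Real.cos_sq_add_sin_sq φ
  have h4 : TCP_e φ ≠ 0 := norm_ne_zero_iff.1 (by rw [TCP_norm]; exact one_ne_zero)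
  have h5 : (r : ℂ) ≠ 0 := Complex.ofReal_ne_zero.2 hr
  have h6 : (π : ℂ) ≠ 0 := Complex.ofReal_ne_zero.2 Real.pi_ne_zero
  have h7 : (r : ℂ) * (1 / (2 * π * (r * TCP_e φ))) =
      1 / (2 * π) * (Real.cos φ - Real.sin φ * Complex.I) := by
    field_simp
    rw [TCP_e]
    linear_combination (-1 : ℂ) * h3 + (Real.sin φ : ℂ) ^ 2 * Complex.I_mul_I
  rw [h1, h2, ← Complex.coe_smul, smul_smul, h7, Complex.ofReal_neg]
  match_scalars
  · ring
  · linear_combination (-1 / (2 * π) * Complex.sin φ : ℂ) * Complex.I_mul_I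

theorem TCP_int {V : Type} [NormedAddCommGroup V] {A : ℝ × ℝ → V} (hA : Continuous A) {ρ : ℝ}
    (h0 : ∀ p : ℝ × ℝ, ρ < p.1 → A p = 0) :
    Integrable A ((volume.restrict (Set.Ioi (0 : ℝ))).prod (volume.restrict (Set.Ioo (-π) π))) := by
  rw [Measure.prod_restrict, ← Measure.volume_eq_prod]
  refine (hA.continuousOn.integrableOn_compact (μ := volume)
    ((isCompact_Icc (a := 0) (b := ρ)).prod (isCompact_Icc (a := -π) (b := π)))).of_forall_sdiff_eq_zero
    (measurableSet_Ioi.prod measurableSet_Ioo) fun p hp => h0 p (lt_of_not_ge fun h => hp.2 ?_)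
  exact ⟨⟨le_of_lt hp.1.1, h⟩, Set.Ioo_subset_Icc_self hp.1.2⟩

theorem cauchy_pompeiu {V : Type} [NormedAddCommGroup V] [NormedSpace ℂ V] [CompleteSpace V]
    (h : ℂ → V) (hh : ContDiff ℝ 1 h) (hc : HasCompactSupport h) :
    ∫ u : ℂ, (1 / (2 * π * u) : ℂ) • (fderiv ℝ h u 1 + Complex.I • fderiv ℝ h u Complex.I)
      = -h 0 := by
  obtain ⟨ρ, hρ⟩ := hc.isCompact.isBounded.subset_closedBall 0
  have hd := hh.differentiable one_ne_zero
  have hn : ∀ (r φ : ℝ), ρ < |r| → (r : ℂ) * TCP_e φ ∉ tsupport h := fun r φ hr hm => by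
    have h1 := mem_closedBall_zero_iff.1 (hρ hm)
    rw [norm_mul, TCP_norm, mul_one, Complex.norm_real, Real.norm_eq_abs] at h1
    exact absurd hr (not_lt.2 h1)
  have hz : ∀ p : ℝ × ℝ, ρ < p.1 → fderiv ℝ h (p.1 * TCP_e p.2) = 0 := fun p hp =>
    fderiv_of_notMem_tsupport ℝ (hn _ _ (hp.trans_le (le_abs_self _)))
  have he := TCP_cont
  have hL : Continuous fun p : ℝ × ℝ => fderiv ℝ h (p.1 * TCP_e p.2) :=
    (hh.continuous_fderiv one_ne_zero).comp (by fun_prop)
  have hA := TCP_int (A := fun p => fderiv ℝ h (p.1 * TCP_e p.2) (TCP_e p.2))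
    (hL.clm_apply (by fun_prop)) fun p hp => by rw [hz p hp]; rfl
  have hB := TCP_int (A := fun p => fderiv ℝ h (p.1 * TCP_e p.2) (Complex.I * TCP_e p.2))
    (hL.clm_apply (by fun_prop)) fun p hp => by rw [hz p hp]; rfl
  have h1 : ∀ φ : ℝ, ∫ r in Set.Ioi (0 : ℝ), fderiv ℝ h (r * TCP_e φ) (TCP_e φ) = -h 0 := fun φ => by
    have a1 : ∀ r : ℝ, HasDerivAt (fun r : ℝ => h (r * TCP_e φ))
        (fderiv ℝ h (r * TCP_e φ) (TCP_e φ)) r := fun r => by
      refine (hd _).hasFDerivAt.comp_hasDerivAt r (f := fun r : ℝ => (r : ℂ) * TCP_e φ) ?_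
      simpa using (Complex.ofRealCLM.hasDerivAt (x := r)).mul_const (TCP_e φ)
    have a2 := HasCompactSupport.integral_Ioi_deriv_eq (f := fun r : ℝ => h (r * TCP_e φ))
      (hh.comp ((Complex.ofRealCLM.contDiff).mul contDiff_const))
      (HasCompactSupport.intro (isCompact_Icc (a := -ρ) (b := ρ)) fun r hr =>
        image_eq_zero_of_notMem_tsupport (hn r φ (lt_of_not_ge fun h => hr (abs_le.1 h)))) 0
    simp only [(a1 _).deriv] at a2
    simpa using a2
  have h2 : ∀ r : ℝ, r ≠ 0 →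
      ∫ φ in Set.Ioo (-π) π, fderiv ℝ h (r * TCP_e φ) (Complex.I * TCP_e φ) = 0 := fun r hr => by
    have a1 : ∀ φ : ℝ, HasDerivAt (fun φ : ℝ => h (r * TCP_e φ))
        (r • fderiv ℝ h (r * TCP_e φ) (Complex.I * TCP_e φ)) φ := fun φ => by
      rw [← map_smul]
      exact (hd _).hasFDerivAt.comp_hasDerivAt φ (f := fun φ : ℝ => (r : ℂ) * TCP_e φ)
        ((TCP_deriv φ).const_mul (r : ℂ))
    have a2 := intervalIntegral.integral_eq_sub_of_hasDerivAt (a := -π) (b := π)
      (fun φ _ => a1 φ) (Continuous.intervalIntegrable (Continuous.const_smul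
        ((hL.comp (Continuous.prodMk_right r)).clm_apply (by fun_prop)) r) _ _)
    have a3 : TCP_e (-π) = TCP_e π := by simp [TCP_e]
    rw [a3, sub_self, intervalIntegral.integral_of_le (by linarith [Real.pi_pos]),
      integral_Ioc_eq_integral_Ioo, integral_smul] at a2
    exact (smul_eq_zero.1 a2).resolve_left hr
  rw [← Complex.integral_comp_polarCoord_symm, polarCoord_target,
    setIntegral_congr_fun (measurableSet_Ioi.prod measurableSet_Ioo)
      (g := fun p : ℝ × ℝ => (1 / (2 * π) : ℂ) • (fderiv ℝ h (p.1 * TCP_e p.2) (TCP_e p.2) +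
        Complex.I • fderiv ℝ h (p.1 * TCP_e p.2) (Complex.I * TCP_e p.2)))
      fun p hp => by
        simp only [Complex.polarCoord_symm_apply]
        exact TCP_alg _ (ne_of_gt hp.1) p.2,
    Measure.volume_eq_prod, ← Measure.prod_restrict, integral_smul,
    integral_add hA (hB.fun_smul Complex.I), integral_smul, integral_prod_symm _ hA, integral_prod _ hB,
    setIntegral_congr_fun (s := Set.Ioi (0 : ℝ)) measurableSet_Ioi (g := fun _ => (0 : V))
      fun r hr => h2 r (ne_of_gt hr)]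
  have h6 : (π : ℂ) ≠ 0 := Complex.ofReal_ne_zero.2 Real.pi_ne_zero
  simp only [h1, integral_zero, smul_zero, add_zero, integral_const, measureReal_restrict_apply_univ,
    Real.volume_real_Ioo]
  rw [max_eq_left (by linarith [Real.pi_pos]), ← Complex.coe_smul, smul_smul]
  have h7 : (1 / (2 * π) : ℂ) * ((π - -π : ℝ) : ℂ) = 1 := by
    push_cast
    field_simp
    ring
  rw [h7, one_smul]

end Vale.Agent.P136
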