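import Vale.Agent.P136.Basic

/-! The plane spanned by the real and imaginary parts of a null vector.

Plan. Write `θ j = a j + b j I`. `IsNull θ` gives `∑ a j ^ 2 = ∑ b j ^ 2` and `∑ a j * b j = 0`
(real and imaginary parts), `∑ ‖θ j‖² = ∑ a j² + ∑ b j²`. Everything is a computation with
`Fin.sum_univ_three`, `EuclideanSpace.norm_eq` / `EuclideanSpace.real_norm_sq_eq`, `Complex.ext`.
For `DV_eq`: `Lp θ 1 = reV θ = ∑ j, a j • ee j`, `Lp θ I = imV θ`, and real linearity of the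
derivative, `(θ j) • v = a j • v + I • (b j • v)`. -/

open MeasureTheory Metric
open scoped ContDiff ComplexConjugate

namespace Vale.Agent.P136

/-- Real part of a complex vector. -/
noncomputable def reV (θ : Fin 3 → ℂ) : E3 := WithLp.toLp 2 fun j => (θ j).re

/-- Imaginary part of a complex vector. -/
noncomputable def imV (θ : Fin 3 → ℂ) : E3 := WithLp.toLp 2 fun j => (θ j).im

/-- The plane map `w ↦ Re w · Re θ + Im w · Im θ`. -/
noncomputable def Lp (θ : Fin 3 → ℂ) : ℂ →L[ℝ] E3 :=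
  Complex.reCLM.smulRight (reV θ) + Complex.imCLM.smulRight (imV θ)

theorem Lp_apply (θ : Fin 3 → ℂ) (w : ℂ) : Lp θ w = w.re • reV θ + w.im • imV θ := rfl

/-- `θ · ∇` for vector valued functions. -/
noncomputable def DV {V : Type} [NormedAddCommGroup V] [NormedSpace ℂ V] (θ : Fin 3 → ℂ)
    (Y : E3 → V) (x : E3) : V := ∑ j, θ j • fderiv ℝ Y x (ee j)

theorem TPl_eq (a : Fin 3 → ℝ) : (WithLp.toLp 2 a : E3) = ∑ j, a j • ee j := by
  ext i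
  fin_cases i <;> simp [ee, Fin.sum_univ_three]

theorem TPl_null {θ : Fin 3 → ℂ} (hθ : IsNull θ) :
    (θ 0).im ^ 2 + (θ 1).im ^ 2 + (θ 2).im ^ 2 = (θ 0).re ^ 2 + (θ 1).re ^ 2 + (θ 2).re ^ 2 ∧
      (θ 0).re * (θ 0).im + (θ 1).re * (θ 1).im + (θ 2).re * (θ 2).im = 0 := by
  have h1 := congrArg Complex.re hθ
  have h2 := congrArg Complex.im hθ
  simp only [Fin.sum_univ_three, Complex.add_re, Complex.mul_re, Complex.zero_re, Complex.add_im,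
    Complex.mul_im, Complex.zero_im] at h1 h2
  constructor <;> linarith

theorem TPl_sq (θ : Fin 3 → ℂ) : ∑ j, ‖θ j‖ ^ 2 = (θ 0).re ^ 2 + (θ 1).re ^ 2 + (θ 2).re ^ 2 +
    ((θ 0).im ^ 2 + (θ 1).im ^ 2 + (θ 2).im ^ 2) := by
  simp only [Fin.sum_univ_three, Complex.sq_norm, Complex.normSq_apply]
  ring

theorem TPl_pos {θ : Fin 3 → ℂ} (h0 : θ ≠ 0) : 0 < ∑ j, ‖θ j‖ ^ 2 := by
  obtain ⟨j, hj⟩ := Function.ne_iff.1 h0
  exact Finset.sum_pos' (fun _ _ => sq_nonneg _)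
    ⟨j, Finset.mem_univ j, pow_pos (norm_pos_iff.2 hj) 2⟩

theorem TPl_reV (θ : Fin 3 → ℂ) : ‖reV θ‖ ^ 2 = (θ 0).re ^ 2 + (θ 1).re ^ 2 + (θ 2).re ^ 2 := by
  simp [EuclideanSpace.real_norm_sq_eq, reV, Fin.sum_univ_three]

theorem TPl_Lp (θ : Fin 3 → ℂ) (w : ℂ) (j : Fin 3) :
    Lp θ w j = w.re * (θ j).re + w.im * (θ j).im := rfl

theorem sum_ee {V : Type} [NormedAddCommGroup V] [NormedSpace ℂ V] (θ : Fin 3 → ℂ)
    (L : E3 →L[ℝ] V) : ∑ j, θ j • L (ee j) = L (Lp θ 1) + Complex.I • L (Lp θ Complex.I) := by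
  have h1 : Lp θ 1 = ∑ j, (θ j).re • ee j := by
    rw [Lp_apply, ← TPl_eq]
    simp [reV]
  have h2 : Lp θ Complex.I = ∑ j, (θ j).im • ee j := by
    rw [Lp_apply, ← TPl_eq]
    simp [imV]
  rw [h1, h2, map_sum, map_sum, Finset.smul_sum, ← Finset.sum_add_distrib]
  refine Finset.sum_congr rfl fun j _ => ?_
  rw [map_smul, map_smul, ← Complex.coe_smul, ← Complex.coe_smul, smul_smul, ← add_smul, mul_comm,
    Complex.re_add_im]

theorem DV_eq {V : Type} [NormedAddCommGroup V] [NormedSpace ℂ V] (θ : Fin 3 → ℂ)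
    (Y : E3 → V) (x : E3) :
    DV θ Y x = fderiv ℝ Y x (Lp θ 1) + Complex.I • fderiv ℝ Y x (Lp θ Complex.I) :=
  sum_ee θ _

theorem DD_val (θ : Fin 3 → ℂ) (f : Sm) (x : E3) : (DD θ f).1 x = DV θ f.1 x := by
  rw [DD_apply, sum_val]
  rfl

theorem lin_add (θ : Fin 3 → ℂ) (x y : E3) : lin θ (x + y) = lin θ x + lin θ y := by
  simp [lin, mul_add, Finset.sum_add_distrib]

theorem lin_sub (θ : Fin 3 → ℂ) (x y : E3) : lin θ (x - y) = lin θ x - lin θ y := by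
  simp [lin, mul_sub, Finset.sum_sub_distrib]

theorem lin_re (θ : Fin 3 → ℂ) (x : E3) : (lin θ x).re = inner ℝ (reV θ) x := by
  simp [lin, reV, PiLp.inner_apply, mul_comm]

theorem zc_add (θ : Fin 3 → ℂ) (x y : E3) : zc θ (x + y) = zc θ x + zc θ y := by
  simp only [zc, lin_add]
  ring

theorem zc_sub (θ : Fin 3 → ℂ) (x y : E3) : zc θ (x - y) = zc θ x - zc θ y := by
  simp only [zc, lin_sub]
  ring

theorem zc_zero (θ : Fin 3 → ℂ) : zc θ 0 = 0 := by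
  simp [zc, lin]

/-- `zc θ` is a continuous real linear map. -/
theorem exists_zcL (θ : Fin 3 → ℂ) : ∃ Z : E3 →L[ℝ] ℂ, ∀ x, Z x = zc θ x := by
  refine ⟨(2 / ((∑ j, ‖θ j‖ ^ 2 : ℝ) : ℂ)) •
    ∑ i, θ i • (Complex.ofRealCLM.comp (EuclideanSpace.proj i : E3 →L[ℝ] ℝ)), fun x => ?_⟩
  have : (∑ i, θ i • (Complex.ofRealCLM.comp (EuclideanSpace.proj i : E3 →L[ℝ] ℝ))) x =
      lin θ x := by simp [lin]
  rw [smul_apply, this, zc, smul_eq_mul]
  ring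

theorem zc_Lp {θ : Fin 3 → ℂ} (hθ : IsNull θ) (h0 : θ ≠ 0) (w : ℂ) : zc θ (Lp θ w) = w := by
  obtain ⟨h1, h2⟩ := TPl_null hθ
  have h3 : ((∑ j, ‖θ j‖ ^ 2 : ℝ) : ℂ) ≠ 0 := Complex.ofReal_ne_zero.2 (TPl_pos h0).ne'
  rw [zc, div_eq_iff h3, TPl_sq, h1]
  apply Complex.ext
  · simp only [lin, Fin.sum_univ_three, TPl_Lp, Complex.mul_re, Complex.add_re, Complex.add_im,
      Complex.mul_im, Complex.ofReal_re, Complex.ofReal_im, Complex.re_ofNat, Complex.im_ofNat]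
    linear_combination 2 * w.im * h2
  · simp only [lin, Fin.sum_univ_three, TPl_Lp, Complex.mul_re, Complex.add_re, Complex.add_im,
      Complex.mul_im, Complex.ofReal_re, Complex.ofReal_im, Complex.re_ofNat, Complex.im_ofNat]
    linear_combination 2 * w.re * h2 + 2 * w.im * h1

theorem norm_Lp {θ : Fin 3 → ℂ} (hθ : IsNull θ) (w : ℂ) : ‖Lp θ w‖ = ‖reV θ‖ * ‖w‖ := by
  obtain ⟨h1, h2⟩ := TPl_null hθ
  refine (pow_left_inj₀ (norm_nonneg _) (by positivity) two_ne_zero).1 ?_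
  rw [mul_pow, TPl_reV, EuclideanSpace.real_norm_sq_eq, Complex.sq_norm, Complex.normSq_apply]
  simp only [Fin.sum_univ_three, TPl_Lp]
  linear_combination 2 * w.re * w.im * h2 + w.im ^ 2 * h1

theorem norm_reV_pos {θ : Fin 3 → ℂ} (hθ : IsNull θ) (h0 : θ ≠ 0) : 0 < ‖reV θ‖ := by
  have h1 := TPl_pos h0
  rw [TPl_sq, (TPl_null hθ).1, ← TPl_reV] at h1
  exact (norm_nonneg _).lt_of_ne fun h => by simp [← h] at h1

theorem contDiff_reV : ContDiff ℝ ∞ reV := by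
  refine contDiff_euclidean.2 fun j => ?_
  exact Complex.reCLM.contDiff.comp (contDiff_apply ℝ ℂ j)

theorem contDiff_Lp : ContDiff ℝ ∞ fun q : (Fin 3 → ℂ) × ℂ => Lp q.1 q.2 := by
  refine contDiff_euclidean.2 fun j => ?_
  have h1 : ContDiff ℝ ∞ fun q : (Fin 3 → ℂ) × ℂ => q.1 j := (contDiff_apply ℝ ℂ j).comp contDiff_fst
  exact ((Complex.reCLM.contDiff.comp contDiff_snd).mul (Complex.reCLM.contDiff.comp h1)).add
    ((Complex.imCLM.contDiff.comp contDiff_snd).mul (Complex.imCLM.contDiff.comp h1))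

theorem contDiffOn_zc :
    ContDiffOn ℝ ∞ (fun q : (Fin 3 → ℂ) × E3 => zc q.1 q.2) {q | q.1 ≠ 0} := by
  have h1 : ∀ j, ContDiff ℝ ∞ fun q : (Fin 3 → ℂ) × E3 => q.1 j := fun j =>
    (contDiff_apply ℝ ℂ j).comp contDiff_fst
  have h2 : ContDiff ℝ ∞ fun q : (Fin 3 → ℂ) × E3 => lin q.1 q.2 :=
    ContDiff.sum fun j _ => (h1 j).mul (Complex.ofRealCLM.contDiff.comp
      ((EuclideanSpace.proj j : E3 →L[ℝ] ℝ).contDiff.comp contDiff_snd))
  have h4 : ContDiff ℝ ∞ fun q : (Fin 3 → ℂ) × E3 => ∑ j, ‖q.1 j‖ ^ 2 :=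
    ContDiff.sum fun j _ => (h1 j).norm_sq ℂ
  have h3 : ContDiff ℝ ∞ fun q : (Fin 3 → ℂ) × E3 => ((∑ j, ‖q.1 j‖ ^ 2 : ℝ) : ℂ) :=
    Complex.ofRealCLM.contDiff.comp h4
  simp only [zc, div_eq_mul_inv]
  exact (contDiff_const.mul h2).contDiffOn.mul
    (h3.contDiffOn.inv fun q hq => Complex.ofReal_ne_zero.2 (TPl_pos hq).ne')

theorem contDiff_wt (N : ℝ) (θ : Fin 3 → ℂ) (x₀ : E3) : ContDiff ℝ ∞ (wt N θ x₀) := by
  obtain ⟨Z, hZ⟩ := exists_zcL θ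
  have h1 : ContDiff ℝ ∞ fun x : E3 => ‖Z (x - x₀)‖ ^ 2 :=
    (Z.contDiff.comp (contDiff_id.sub contDiff_const)).norm_sq ℂ
  simp only [hZ] at h1
  exact ((contDiff_const.mul h1).div_const 2).exp

theorem wt_self (N : ℝ) (θ : Fin 3 → ℂ) (x₀ : E3) : wt N θ x₀ x₀ = 1 := by
  simp [wt, zc_zero]

theorem one_le_wt {N : ℝ} (hN : 0 ≤ N) (θ : Fin 3 → ℂ) (x₀ x : E3) : 1 ≤ wt N θ x₀ x := by
  exact Real.one_le_exp (by positivity)

end Vale.Agent.P136
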