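import Vale.Agent.P136.TCP
import Vale.Agent.P136.TPl

/-! The weighted Cauchy transform `TN` is a right inverse of `θ · ∇`.

Plan. Let `Z` be the linear map of `exists_zcL`, `H y u := exp (N (conj (Z (y - x₀)) - conj u) u) •
φ (y - Lp θ u)`, jointly smooth; for `y` in the unit ball around `x` it vanishes when `‖u‖ ≥ ρ`
(`norm_Lp`, `norm_reV_pos`, compact support of `φ`), and its `y`-derivative is bounded on the
compact set. `hasFDerivAt_integral_of_dominated_of_fderiv_le` with bound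
`C * ‖u‖⁻¹ * 1_{‖u‖ ≤ ρ}` (`inv_norm_integrableOn`) gives the derivative of `TN` as
`∫ (2π u)⁻¹ • ∂_y H x u`; evaluate on `Lp θ 1` and `Lp θ I` (`ContinuousLinearMap.integral_apply`,
`DV_eq`). Put `h u := H x u`. Using `zc_Lp` (`Z (Lp θ v) = v`), for `v = 1, I`:
`∂_y H (Lp θ v) = E • (N conj v u • φ + φ' (Lp θ v))` and
`fderiv h u v = E • ((N (conj z - conj u) v - N conj v u) • φ - φ' (Lp θ v))`; in the combination
`(v = 1) + I • (v = I)` the term with `v` cancels (`1 + I * I = 0`), so the first combination is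
minus the second; conclude by `cauchy_pompeiu` and `h 0 = φ x`. -/

open MeasureTheory Metric Real
open scoped ContDiff ComplexConjugate

namespace Vale.Agent.P136

/-- The Cauchy transform with Fock kernel, centred at `x₀`. -/
noncomputable def TN {V : Type} [NormedAddCommGroup V] [NormedSpace ℂ V] (N : ℝ) (θ : Fin 3 → ℂ)
    (x₀ : E3) (φ : E3 → V) (x : E3) : V :=
  ∫ u : ℂ, (Complex.exp (N * ((conj (zc θ (x - x₀)) - conj u) * u)) / (2 * π * u)) •
    φ (x - Lp θ u)

theorem TInt_bd {W : Type} [NormedAddCommGroup W] [NormedSpace ℂ W] {R C : ℝ} {u : ℂ} {g : W}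
    (h1 : u ∈ closedBall (0 : ℂ) R → ‖g‖ ≤ C) (h2 : R ≤ ‖u‖ → g = 0) :
    ‖(1 / (2 * π * u) : ℂ) • g‖ ≤ (closedBall (0 : ℂ) R).indicator (fun u => C * ‖u‖⁻¹) u := by
  by_cases hu : u ∈ closedBall (0 : ℂ) R
  · rw [Set.indicator_of_mem hu, norm_smul, mul_comm]
    refine mul_le_mul (h1 hu) ?_ (norm_nonneg _) ((norm_nonneg _).trans (h1 hu))
    rw [one_div, mul_inv, norm_mul, norm_inv, norm_inv]
    refine mul_le_of_le_one_left (by positivity) (inv_le_one_of_one_le₀ ?_)
    rw [norm_mul, Complex.norm_real, Real.norm_of_nonneg pi_pos.le, Complex.norm_ofNat]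
    linarith [pi_gt_three]
  · rw [Set.indicator_of_notMem hu, h2 (le_of_lt (by simpa using hu)), smul_zero, norm_zero]

theorem TInt_bint (R C : ℝ) :
    Integrable ((closedBall (0 : ℂ) R).indicator fun u => C * ‖u‖⁻¹) :=
  IntegrableOn.integrable_indicator ((inv_norm_integrableOn R).const_mul C) measurableSet_closedBall

theorem TInt_meas {W : Type} [NormedAddCommGroup W] [NormedSpace ℂ W] {g : ℂ → W}
    (hg : Continuous g) : AEStronglyMeasurable (fun u : ℂ => (1 / (2 * π * u) : ℂ) • g u) volume :=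
  (Measurable.aestronglyMeasurable (by fun_prop)).smul hg.aestronglyMeasurable

theorem TInt_int {W : Type} [NormedAddCommGroup W] [NormedSpace ℂ W] {g : ℂ → W}
    (hg : Continuous g) {R : ℝ} (h : ∀ u, R ≤ ‖u‖ → g u = 0) :
    Integrable fun u : ℂ => (1 / (2 * π * u) : ℂ) • g u := by
  obtain ⟨C, hC⟩ := (isCompact_closedBall (0 : ℂ) R).exists_bound_of_continuousOn hg.continuousOn
  exact (TInt_bint R C).mono' (TInt_meas hg) (ae_of_all _ fun u => TInt_bd (hC u) (h u))

theorem TInt_gen {V : Type} [NormedAddCommGroup V] [NormedSpace ℂ V] [CompleteSpace V]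
    {G : E3 × ℂ → V} (hG : ContDiff ℝ 1 G) (x : E3) {R : ℝ}
    (h : ∀ y ∈ ball x 1, ∀ u, R ≤ ‖u‖ → G (y, u) = 0) (v : E3) :
    (Integrable fun u : ℂ => (1 / (2 * π * u) : ℂ) • fderiv ℝ G (x, u) (v, 0)) ∧
      fderiv ℝ (fun y => ∫ u : ℂ, (1 / (2 * π * u) : ℂ) • G (y, u)) x v =
        ∫ u : ℂ, (1 / (2 * π * u) : ℂ) • fderiv ℝ G (x, u) (v, 0) := by
  let D : E3 × ℂ → E3 →L[ℝ] V := fun q => (fderiv ℝ G q).comp (ContinuousLinearMap.inl ℝ E3 ℂ)
  have hD : Continuous D := (hG.continuous_fderiv one_ne_zero).clm_comp continuous_const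
  have h1 : ∀ y u, HasFDerivAt (fun y => G (y, u)) (D (y, u)) y := fun y u =>
    (hG.differentiable one_ne_zero (y, u)).hasFDerivAt.comp y (hasFDerivAt_prodMk_left y u)
  have h2 : ∀ y ∈ ball x 1, ∀ u, R ≤ ‖u‖ → D (y, u) = 0 := fun y hy u hu =>
    (h1 y u).unique ((hasFDerivAt_const (0 : V) y).congr_of_eventuallyEq
      (Filter.mem_of_superset (isOpen_ball.mem_nhds hy) fun z hz => h z hz u hu))
  obtain ⟨C, hC⟩ := ((isCompact_closedBall x 1).prod
    (isCompact_closedBall (0 : ℂ) R)).exists_bound_of_continuousOn hD.continuousOn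
  have h3 : Continuous fun u : ℂ => D (x, u) := hD.comp (Continuous.prodMk_right x)
  have h4 := TInt_int h3 (h2 x (mem_ball_self one_pos))
  have h5 := hasFDerivAt_integral_of_dominated_of_fderiv_le (μ := volume) (𝕜 := ℝ)
    (F := fun y (u : ℂ) => (1 / (2 * π * u) : ℂ) • G (y, u))
    (F' := fun y (u : ℂ) => (1 / (2 * π * u) : ℂ) • D (y, u)) (ball_mem_nhds x one_pos)
    (Filter.Eventually.of_forall fun y =>
      TInt_meas (hG.continuous.comp (Continuous.prodMk_right y)))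
    (TInt_int (hG.continuous.comp (Continuous.prodMk_right x)) (h x (mem_ball_self one_pos)))
    (TInt_meas h3)
    (ae_of_all _ fun u y hy => TInt_bd (fun hu => hC (y, u) ⟨ball_subset_closedBall hy, hu⟩)
      (h2 y hy u)) (TInt_bint R C) (ae_of_all _ fun u y _ => (h1 y u).const_smul _)
  refine ⟨h4.apply_continuousLinearMap v, ?_⟩
  rw [h5.fderiv, ContinuousLinearMap.integral_apply h4]
  rfl

theorem DV_TN {V : Type} [NormedAddCommGroup V] [NormedSpace ℂ V] [CompleteSpace V] (N : ℝ)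
    {θ : Fin 3 → ℂ} (hθ : IsNull θ) (h0 : θ ≠ 0) (x₀ : E3) (φ : E3 → V) (hφ : ContDiff ℝ ∞ φ)
    (ρ : ℝ) (hs : ∀ x, ρ ≤ ‖x‖ → φ x = 0) (x : E3) : DV θ (TN N θ x₀ φ) x = φ x := by
  obtain ⟨Z, hZ⟩ := exists_zcL θ
  let G : E3 × ℂ → V := fun q =>
    Complex.exp (N * ((Complex.conjCLE (Z (q.1 - x₀)) - Complex.conjCLE q.2) * q.2)) •
      φ (q.1 - Lp θ q.2)
  have hφ1 : ContDiff ℝ 1 φ := hφ.of_le (by exact_mod_cast le_top)
  have hG : ContDiff ℝ 1 G := by
    refine ContDiff.smul (Complex.contDiff_exp.comp (contDiff_const.mul (ContDiff.mul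
      ((Complex.conjCLE.contDiff.comp (Z.contDiff.comp (contDiff_fst.sub contDiff_const))).sub
        (Complex.conjCLE.contDiff.comp contDiff_snd)) contDiff_snd))) ?_
    exact hφ1.comp (contDiff_fst.sub ((Lp θ).contDiff.comp contDiff_snd))
  have hr := norm_reV_pos hθ h0
  have hv : ∀ y ∈ ball x 1, ∀ u : ℂ, (ρ + ‖x‖ + 1) / ‖reV θ‖ ≤ ‖u‖ → G (y, u) = 0 := by
    intro y hy u hu
    have h1 : ‖y‖ ≤ ‖x‖ + 1 := by
      have := norm_le_norm_add_norm_sub' y x
      linarith [mem_ball_iff_norm.1 hy]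
    have h2 := norm_sub_norm_le (Lp θ u) y
    rw [norm_sub_rev, norm_Lp hθ] at h2
    rw [div_le_iff₀' hr] at hu
    simp only [G]
    rw [hs _ (by linarith), smul_zero]
  have hT : TN N θ x₀ φ = fun y => ∫ u : ℂ, (1 / (2 * π * u) : ℂ) • G (y, u) := by
    funext y
    simp only [TN, G, smul_smul, hZ, Complex.conjCLE_apply, one_div, div_eq_inv_mul, mul_one]
  have hh : ∀ u v : ℂ, fderiv ℝ (fun u => G (x, u)) u v = fderiv ℝ G (x, u) (0, v) := fun u v =>
    DFunLike.congr_fun ((hG.differentiable one_ne_zero (x, u)).hasFDerivAt.comp u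
      (hasFDerivAt_prodMk_right x u)).fderiv v
  have hd : ∀ u : ℂ, ∃ D : V, ∀ v : ℂ, fderiv ℝ G (x, u) (Lp θ v, v) = v • D := fun u => by
    set w : ℂ := conj (Z (x - x₀)) - conj u
    have e1 : HasFDerivAt (fun v : ℂ => (x + Lp θ v, u + v))
        ((Lp θ).prod (ContinuousLinearMap.id ℝ ℂ)) 0 :=
      ((Lp θ).hasFDerivAt.const_add x).prodMk ((hasFDerivAt_id 0).const_add u)
    have e2 : HasFDerivAt G (fderiv ℝ G (x, u)) (x + Lp θ 0, u + 0) := by
      rw [map_zero, add_zero, add_zero]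
      exact (hG.differentiable one_ne_zero (x, u)).hasFDerivAt
    have e3 : (G ∘ fun v : ℂ => (x + Lp θ v, u + v)) =
        fun v => Complex.exp (N * (w * (u + v))) • φ (x - Lp θ u) := by
      funext v
      have f1 : Z (x + Lp θ v - x₀) = Z (x - x₀) + v := by
        rw [add_sub_right_comm, map_add, hZ (Lp θ v), zc_Lp hθ h0]
      simp only [G, Function.comp, Complex.conjCLE_apply, f1, map_add, add_sub_add_right_eq_sub, w]
    have e4 := (((((hasDerivAt_id (0 : ℂ)).const_add u).const_mul w).const_mul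
      (N : ℂ)).cexp.smul_const (φ (x - Lp θ u))).hasFDerivAt.restrictScalars ℝ
    have e5 := e2.comp 0 e1
    rw [e3] at e5
    exact ⟨_, fun v => DFunLike.congr_fun (e5.unique e4) v⟩
  obtain ⟨i1, d1⟩ := TInt_gen hG x hv (Lp θ 1)
  obtain ⟨i2, d2⟩ := TInt_gen hG x hv (Lp θ Complex.I)
  have hcp := cauchy_pompeiu (fun u => G (x, u)) (hG.comp (contDiff_const.prodMk contDiff_id))
    (HasCompactSupport.intro (isCompact_closedBall 0 ((ρ + ‖x‖ + 1) / ‖reV θ‖)) fun u hu =>
      hv x (mem_ball_self one_pos) u (le_of_lt (by simpa using hu)))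
  have i3 : Integrable fun u : ℂ => Complex.I • (1 / (2 * π * u) : ℂ) •
      fderiv ℝ G (x, u) (Lp θ Complex.I, 0) := i2.smul Complex.I
  have h00 : G (x, 0) = φ x := by simp [G]
  rw [DV_eq, hT, d1, d2, ← integral_smul, ← integral_add i1 i3, ← h00,
    ← neg_neg (G (x, 0)), ← hcp, ← integral_neg]
  refine integral_congr_ae (ae_of_all _ fun u => ?_)
  obtain ⟨D, hD⟩ := hd u
  have e : ∀ v : ℂ, fderiv ℝ G (x, u) (Lp θ v, 0) = v • D - fderiv ℝ G (x, u) (0, v) := fun v => by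
    rw [← hD, ← map_sub, Prod.mk_sub_mk, sub_zero, sub_self]
  simp only [hh, e]
  rw [smul_comm Complex.I, ← smul_add, ← smul_neg, smul_sub, smul_smul, Complex.I_mul_I]
  congr 1
  module

end Vale.Agent.P136
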