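import Vale.Agent.P136.Basic

/-! The Gaussian Cauchy kernel.

Plan. Polar coordinates (`Complex.integral_comp_polarCoord_symm`, or
`Complex.lintegral_comp_polarCoord_symm`, or `integrableOn_ball_of_norm_le_rpow` /
`integrable_fun_norm_addHaar`, `integral_fun_norm_addHaar`):
`‖kap N u‖ = exp (-N r²/2) / (2π r)`, so its integral over `ℂ` is
`∫_0^∞ exp (-N r²/2) dr = sqrt (π / (2N))` (`integral_gaussian_Ioi` with `b = N/2`). -/

open MeasureTheory Metric Real
open scoped ContDiff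

namespace Vale.Agent.P136

/-- The kernel `e^{-N|u|²/2} / (2π u)`. -/
noncomputable def kap (N : ℝ) (u : ℂ) : ℂ :=
  (Real.exp (-(N * ‖u‖ ^ 2 / 2)) : ℂ) / (2 * π * u)

/-- Its `L¹` norm. -/
noncomputable def qN (N : ℝ) : ℝ := Real.sqrt (π / (2 * N))

theorem qN_pos {N : ℝ} (hN : 0 < N) : 0 < qN N := by
  exact Real.sqrt_pos.2 (div_pos pi_pos (by linarith))

theorem qN_small (ε : ℝ) (hε : 0 < ε) : ∃ N₀ : ℝ, 0 < N₀ ∧ ∀ N, N₀ ≤ N → qN N ≤ ε := by
  have h0 : 0 < π / (2 * ε ^ 2) := by positivity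
  refine ⟨_, h0, fun N hN => Real.sqrt_le_iff.2 ⟨hε.le, ?_⟩⟩
  rw [div_le_iff₀ (by linarith)]
  rw [div_le_iff₀ (by positivity)] at hN
  linarith

theorem TKa_norm (N : ℝ) (u : ℂ) :
    ‖kap N u‖ = (fun r : ℝ => Real.exp (-(N * r ^ 2 / 2)) / (2 * π * r)) ‖u‖ := by
  simp only [kap, norm_div, norm_mul, Complex.norm_real, Real.norm_eq_abs, abs_exp,
    abs_of_pos pi_pos, Complex.norm_ofNat]

theorem TKa_eq (N : ℝ) : Set.EqOn (fun r : ℝ => (2 * π)⁻¹ * Real.exp (-(N / 2) * r ^ 2))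
    (fun r : ℝ => r ^ (Module.finrank ℝ ℂ - 1) • (Real.exp (-(N * r ^ 2 / 2)) / (2 * π * r)))
    (Set.Ioi 0) := fun r hr => by
  have h : r ≠ 0 := ne_of_gt hr
  have e : -(N / 2) * r ^ 2 = -(N * r ^ 2 / 2) := by ring
  simp only [Complex.finrank_real_complex, e, smul_eq_mul, Nat.add_one_sub_one, pow_one]
  field_simp

theorem kap_integrable {N : ℝ} (hN : 0 < N) : Integrable (kap N) := by
  have hm : Measurable (kap N) := by
    unfold kap
    fun_prop
  rw [← integrable_norm_iff hm.aestronglyMeasurable]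
  simp only [TKa_norm N]
  exact (integrable_fun_norm_addHaar volume
    (f := fun r : ℝ => Real.exp (-(N * r ^ 2 / 2)) / (2 * π * r))).2
    (IntegrableOn.congr_fun ((integrable_exp_neg_mul_sq (half_pos hN)).const_mul _).integrableOn
      (TKa_eq N) measurableSet_Ioi)

theorem kap_int_le {N : ℝ} (hN : 0 < N) : ∫ u, ‖kap N u‖ ≤ qN N := by
  simp only [TKa_norm N]
  refine ((integral_fun_norm_addHaar volume
    fun r : ℝ => Real.exp (-(N * r ^ 2 / 2)) / (2 * π * r)).trans ?_).le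
  rw [← setIntegral_congr_fun measurableSet_Ioi (TKa_eq N), integral_const_mul,
    integral_gaussian_Ioi, Measure.real, Complex.volume_ball, Complex.finrank_real_complex, qN,
    show π / (N / 2) = 2 ^ 2 * (π / (2 * N)) by field_simp, Real.sqrt_mul (by norm_num),
    Real.sqrt_sq (by norm_num)]
  have := pi_pos.ne'
  simp only [ENNReal.ofReal_one, one_pow, one_mul, ENNReal.coe_toReal, NNReal.coe_real_pi,
    smul_eq_mul, nsmul_eq_mul, Nat.cast_ofNat]
  field_simp

/-- `1/|u|` is integrable on discs. -/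
theorem inv_norm_integrableOn (ρ : ℝ) :
    IntegrableOn (fun u : ℂ => ‖u‖⁻¹) (closedBall (0 : ℂ) ρ) := by
  refine (integrableOn_ball_of_norm_le_rpow (C := 1) (α := 1) (r := ρ + 1) (by simp) (by simp)
    (ae_of_all _ fun x => ?_) (by fun_prop : Measurable _).aestronglyMeasurable).mono_set
    (closedBall_subset_ball (lt_add_one ρ))
  simp [Real.rpow_neg_one]

end Vale.Agent.P136
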